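import Vale.Agent.P344.Scalar

/-- For every `n ≥ 2`, every linear circuit computing the discrete Fourier transform `F_n` has at
least `2 n - 2` gates `u ± v`, at least `n - τ(n)` scalar gates, and so at least
`3 n - τ(n) - 2` gates in total. -/
theorem Vale.Agent.Results.P344.LinearBound.result (n : ℕ) (hn : 2 ≤ n)
    (gates : List Vale.Agent.P344.Gate) (output : Fin n → ℕ)
    (h : Vale.Agent.P344.ComputesDFT n gates output) :
    2 * n - 2 ≤ Vale.Agent.P344.addCount gates ∧
      n ≤ Vale.Agent.P344.smulCount gates + (Nat.divisors n).card ∧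
      3 * n ≤ gates.length + (Nat.divisors n).card + 2 :=
  Vale.Agent.P344.linear_bound hn h
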